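import Vale.Agent.P339N.Test

/-! Smoothness, decoding, and the averaged bound. -/

namespace Vale.Agent.P339N

open Finset Vale.Agent.P325 Vale.Agent.P325.Lin Function
open scoped BigOperators

set_option linter.unusedSectionVars false

lemma mm_le {X Y : Type} [Fintype X] [Fintype Y] [DecidableEq X] [DecidableEq Y] (p : X → Y)
    (S : X → F2) (A : Finset X) (hA : ∀ s ∈ A, S s ≠ 0) (hp : Set.InjOn p A) :
    mm p S ≤ 2 * (1 / 2) ^ A.card := by
  have h : ∀ b : F2, 𝔼 g : Y → F2, ind (∀ s, S s ≠ 0 → g (p s) = b) ≤ (1 / 2) ^ A.card := by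
    intro b
    refine (ex_mono (g := fun g : Y → F2 => ind (∀ t, t ∈ A.image p → g t = b)) fun g =>
      ind_mono fun h t ht => ?_).trans (le_of_eq ?_)
    · obtain ⟨s, hs, rfl⟩ := mem_image.1 ht
      exact h s (hA s hs)
    simp only [ind_forall]
    rw [ex_pi_prod fun t a => ind (t ∈ A.image p → a = b), ← card_image_of_injOn hp, ← prod_const,
      ← prod_subset (subset_univ (A.image p)) fun t _ ht => by simp [ht, ind]]
    refine prod_congr rfl fun t ht => ?_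
    simp [ht, ind_eq_ite]
  rw [mm, ex_sum]
  exact (sum_le_sum fun b _ => h b).trans (by simp)

variable {k L R : ℕ}

/-- The smooth projection: coordinate `i` is projected, the others are kept. -/
def pr (d : Fin L) (i : Fin k) (π : Fin L → Fin R) (x : Fin k → Fin L) :
    (Fin k → Fin L) × Fin R := (update x i d, π (x i))

lemma ex_coll (hk : 0 < k) (d : Fin L) (π : Fin k → Fin L → Fin R) (A : Finset (Fin k → Fin L)) :
    𝔼 i, ind (¬ Set.InjOn (pr d i (π i)) A) ≤ A.card ^ 2 / k := by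
  have : Nonempty (Fin k) := ⟨⟨0, hk⟩⟩
  have h : ∀ x y : Fin k → Fin L, 𝔼 i, ind (x ≠ y ∧ update x i d = update y i d) ≤ 1 / k := by
    intro x y
    by_cases e : x = y
    · simp [e, ind]
    obtain ⟨j, hj⟩ := ne_iff.1 e
    refine (ex_mono (g := fun i => ind (i = j)) fun i => ind_mono fun h => by_contra fun hi =>
      hj (by simpa [update_of_ne (Ne.symm hi)] using congrFun h.2 j)).trans (le_of_eq ?_)
    simp [ind_eq_ite]
  refine (ex_mono (g := fun i => ∑ x ∈ A, ∑ y ∈ A, ind (x ≠ y ∧ update x i d = update y i d))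
    fun i => ?_).trans ?_
  · by_cases e : Set.InjOn (pr d i (π i)) A
    · rw [ind_neg (not_not.2 e)]
      exact sum_nonneg fun _ _ => sum_nonneg fun _ _ => ind_nonneg _
    simp only [Set.InjOn, not_forall] at e
    obtain ⟨x, hx, y, hy, h1, h2⟩ := e
    refine (ind_le_one _).trans (le_trans ?_ (single_le_sum (f := fun x => ∑ y ∈ A,
      ind (x ≠ y ∧ update x i d = update y i d))
      (fun _ _ => sum_nonneg fun _ _ => ind_nonneg _) hx))
    exact (ind_pos ⟨h2, congrArg Prod.fst h1⟩).ge.trans (single_le_sum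
      (f := fun y => ind (x ≠ y ∧ update x i d = update y i d)) (fun _ _ => ind_nonneg _) hy)
  · simp only [ex_sum]
    refine (sum_le_sum fun x _ => sum_le_sum fun y _ => h x y).trans (le_of_eq ?_)
    simp only [sum_const, nsmul_eq_mul]
    ring

lemma smooth {η : ℝ} (hη : 0 < η) : ∃ P k : ℕ, 0 < k ∧ ∀ (L R : ℕ) (d : Fin L)
    (π : Fin k → Fin L → Fin R) (S : (Fin k → Fin L) → F2),
    𝔼 i, (1 - th P S) ^ 2 * mm (pr d i (π i)) S ≤ η := by
  obtain ⟨N, hN⟩ := exists_pow_lt_of_lt_one (x := η / 4) (y := (1 / 2 : ℝ)) (by positivity)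
    (by norm_num)
  obtain ⟨k, hk⟩ := exists_nat_gt (4 * N ^ 2 / η)
  obtain ⟨P, hP⟩ := exists_nat_gt (4 * N / η)
  have k0 : (0 : ℝ) < k := lt_of_le_of_lt (by positivity) hk
  refine ⟨P, k, by exact_mod_cast k0, fun L R d π S => ?_⟩
  have : Nonempty (Fin k) := ⟨⟨0, by exact_mod_cast k0⟩⟩
  have m0 : ∀ i, 0 ≤ mm (pr d i (π i)) S := fun i =>
    ex_nonneg fun _ => sum_nonneg fun _ _ => ind_nonneg _
  have m2 : ∀ i, mm (pr d i (π i)) S ≤ 2 := fun i => by simpa using mm_le _ S ∅ (by simp) (by simp)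
  have t0 : 0 ≤ th P S := by rw [th]; positivity
  have t1 : th P S ≤ 1 := pow_le_one₀ (by positivity)
    ((div_le_one (by positivity)).2 (by linarith))
  rcases le_total N #{s | S s ≠ 0} with h | h
  · obtain ⟨A, hA, rfl⟩ := exists_subset_card_eq h
    refine (ex_mono (g := fun i => η / 2 + 2 * ind (¬ Set.InjOn (pr d i (π i)) A))
      fun i => (mul_le_of_le_one_left (m0 i) (by nlinarith)).trans ?_).trans ?_
    · by_cases e : Set.InjOn (pr d i (π i)) A
      · rw [ind_neg (not_not.2 e)]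
        linarith [mm_le _ S A (fun s hs => (mem_filter.1 (hA hs)).2) e]
      · rw [ind_pos e]
        linarith [m2 i]
    · have h1 := ex_coll (by exact_mod_cast k0) d π A
      rw [div_lt_iff₀ hη] at hk
      rw [ex_add, ex_mul, Fintype.expect_const]
      have : (A.card : ℝ) ^ 2 / k ≤ η / 4 := by rw [div_le_iff₀ k0]; linarith
      linarith
  · refine ex_le fun i => ?_
    have h3 := one_add_mul_le_pow (a := -(2 / (P + 2) : ℝ)) (by
      rw [neg_le_neg_iff, div_le_iff₀ (by positivity)]; nlinarith [Nat.cast_nonneg (α := ℝ) P])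
      #{s | S s ≠ 0}
    rw [show 1 + -(2 / (P + 2) : ℝ) = P / (P + 2) by field_simp; ring, ← th] at h3
    have h4 := mul_le_mul_of_nonneg_right (Nat.cast_le (α := ℝ).2 h)
      (show (0 : ℝ) ≤ 2 / (P + 2) by positivity)
    have h5 : N * (2 / (P + 2) : ℝ) ≤ η / 2 := by
      rw [div_lt_iff₀ hη] at hP
      rw [← mul_div_assoc, div_le_iff₀ (by positivity)]
      nlinarith
    have := mul_le_mul_of_nonneg_left (m2 i) (sq_nonneg (1 - th P S))
    nlinarith

lemma resample {E : Type} [Fintype E] [Nonempty E] (i : Fin k) (F : (Fin k → E) → ℝ) :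
    𝔼 e, F e = 𝔼 e, 𝔼 b, F (update e i b) := by
  have h : Involutive fun p : (Fin k → E) × E => (update p.1 i p.2, p.1 i) := fun p => by simp
  have := ex_equiv h.toPerm fun p => F p.1
  simp only [ex_prod, Fintype.expect_const] at this
  exact this.symm

/-- Random labellings of total weights `K` and `1` have value at most `ε`. -/
def Snd {E : Type} [Fintype E] (u v : E → ℕ) (π : E → Fin L → Fin R) (K ε : ℝ) : Prop :=
  ∀ (wL : ℕ → Fin L → ℝ) (wR : ℕ → Fin R → ℝ), (∀ x l, 0 ≤ wL x l) → (∀ x, ∑ l, wL x l ≤ K) →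
    (∀ x t, 0 ≤ wR x t) → (∀ x, ∑ t, wR x t ≤ 1) → 𝔼 e, ∑ l, wL (u e) l * wR (v e) (π e l) ≤ ε

lemma decode {E : Type} [Fintype E] [Nonempty E] {u v : E → ℕ} {π : E → Fin L → Fin R} {K ε : ℝ}
    (h : Snd u v π K ε) (d : Fin L) (i : Fin k) {WL : (Fin k → ℕ) → (Fin k → Fin L) → ℝ}
    {WR : (Fin k → ℕ) → (Fin k → Fin L) × Fin R → ℝ} (l0 : ∀ x l, 0 ≤ WL x l)
    (l1 : ∀ x, ∑ l, WL x l ≤ K) (r0 : ∀ x t, 0 ≤ WR x t) (r1 : ∀ x, ∑ t, WR x t ≤ 1) :
    𝔼 e : Fin k → E, ∑ s, WL (u ∘ e) s * WR (update (u ∘ e) i (v (e i))) (pr d i (π (e i)) s) ≤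
      ε := by
  rw [resample i]
  refine ex_le fun e => ?_
  have a1 : ∀ x, ∑ l, ∑ s with s i = l, WL (update (u ∘ e) i x) s ≤ K := fun x => by
    rw [sum_fiberwise]; exact l1 _
  have a2 : ∀ x, ∑ t, ∑ y, WR (update (u ∘ e) i x) (y, t) ≤ 1 := fun x => by
    rw [sum_comm, ← Fintype.sum_prod_type]; exact r1 _
  refine le_trans (ex_mono fun b => ?_) (h _ _ (fun _ _ => sum_nonneg fun _ _ => l0 _ _) a1
    (fun _ _ => sum_nonneg fun _ _ => r0 _ _) a2)
  simp only [comp_update, update_idem, update_self]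
  refine (sum_fiberwise univ (fun s : Fin k → Fin L => s i) _).symm.trans_le
    (sum_le_sum fun l _ => ?_)
  rw [sum_mul]
  refine sum_le_sum fun s hs => mul_le_mul_of_nonneg_left ?_ (l0 _ _)
  rw [pr, (mem_filter.1 hs).2]
  exact single_le_sum (f := fun y => WR _ (y, π b l)) (fun _ _ => r0 _ _) (mem_univ _)

theorem model {η : ℝ} (hη : 0 < η) : ∃ (k : ℕ) (K ε : ℝ), 0 < k ∧ 0 < K ∧ 0 < ε ∧
    ∀ (L R : ℕ) (d : Fin L) (_ : Fin R) (E : Type) [Fintype E] [Nonempty E] (u v : E → ℕ)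
    (π : E → Fin L → Fin R), Snd u v π K ε → ∀ (T : (Fin k → ℕ) → ((Fin k → Fin L) → F2) → F2)
    (b : (Fin k → ℕ) → Fin k → ((Fin k → Fin L) × Fin R → F2) → F2)
    (ω : (Fin k → E) → Fin k → F2 → ((Fin k → Fin L) × Fin R → F2) → ((Fin k → Fin L) → F2) → F2),
    (∀ e i γ g ψ ψ', (∀ s, g (pr d i (π (e i)) s) = γ → ψ s = ψ' s) → ω e i γ g ψ = ω e i γ g ψ') →
    𝔼 e : Fin k → E, 𝔼 i, 𝔼 c : F2, 𝔼 g : (Fin k → Fin L) × Fin R → F2, 𝔼 ψ,
      stat (b (update (u ∘ e) i (v (e i))) i (g + fun _ => c) + c) (T (u ∘ e) ψ)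
        (T (u ∘ e) (ψ + g ∘ pr d i (π (e i))))
        (ω e i (b (update (u ∘ e) i (v (e i))) i (g + fun _ => c) + c) g ψ) ≤ 1 + η := by
  obtain ⟨δ, rfl⟩ : ∃ δ, η = 6 * δ := ⟨η / 6, by ring⟩
  have hδ : 0 < δ := by linarith
  obtain ⟨P, k, hk, h1⟩ := smooth (pow_pos hδ 2)
  obtain ⟨P', h2⟩ := stab P (pow_pos hδ 2)
  obtain ⟨K, K0, -, h3⟩ := sum_wl P'
  obtain ⟨m, hm⟩ := exists_nat_gt (2 / δ)
  have m0 : (0 : ℝ) < m := lt_trans (by positivity) hm
  obtain ⟨δ', hd⟩ : ∃ δ', δ' = δ / (2 * (2 * m + 1)) := ⟨_, rfl⟩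
  have hδ' : 0 < δ' := by rw [hd]; positivity
  refine ⟨k, K, δ' ^ 2, hk, K0, by positivity, fun L R d t E _ _ u v π hS T b ω hω => ?_⟩
  have : Nonempty (Fin k) := ⟨⟨0, hk⟩⟩
  have : Nonempty ((Fin k → Fin L) × Fin R) := ⟨(fun _ => d, t)⟩
  refine (ex_mono fun e => ex_mono fun i => test P P' (m := m) (by exact_mod_cast m0) _ _ _ _
    (hω e i) hδ hδ' (h2 _ _)).trans ?_
  have a1 : 𝔼 e : Fin k → E, 𝔼 i, ∑ S, hat (fun x => sgn (T (u ∘ e) x)) S ^ 2 *
      ((1 - th P S) ^ 2 * mm (pr d i (π (e i))) S) ≤ δ ^ 2 := ex_le fun e => by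
    simp only [ex_sum, ex_mul (hat _ _ ^ 2)]
    refine (sum_le_sum fun S _ => mul_le_mul_of_nonneg_left (h1 L R d (fun i => π (e i)) S)
      (sq_nonneg _)).trans ?_
    rw [← sum_mul, sum_hat, one_mul]
  have a2 : ∀ j, 𝔼 e : Fin k → E, 𝔼 i, ∑ s, wl P' (lev P m (T (u ∘ e)) j) s *
      wr (fun x => sgn (b (update (u ∘ e) i (v (e i))) i x)) (pr d i (π (e i)) s) ≤ δ' ^ 2 :=
    fun j => (ex_comm _).trans_le (ex_le fun i => decode hS d i
      (WL := fun x => wl P' (lev P m (T x) j)) (WR := fun x => wr fun y => sgn (b x i y))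
      (fun _ => wl_nonneg _) (fun x => h3 _ _ fun ψ => by
        rw [lev, abs_of_nonneg (ind_nonneg _)]; exact ind_le_one _)
      (fun _ => wr_nonneg _) fun _ => sum_wr _)
  have a3 : 2 / (m : ℝ) ≤ δ := by
    rw [div_lt_iff₀ hδ] at hm
    rw [div_le_iff₀ m0]
    linarith
  simp only [ex_add, ex_sum (Icc _ _), div_eq_mul_inv _ δ, div_eq_mul_inv _ δ', ex_mul',
    Fintype.expect_const]
  have a4 := (sum_le_sum (s := Icc (-m : ℤ) m) fun j _ => add_le_add_right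
    (mul_le_mul_of_nonneg_right (a2 j) (inv_pos.2 hδ').le) δ').trans_eq (c := δ) (by
      rw [sum_const, Int.card_Icc, show (m + 1 - -m : ℤ) = (2 * m + 1 : ℕ) by push_cast; ring,
        Int.toNat_natCast, nsmul_eq_mul, sq, mul_inv_cancel_right₀ hδ'.ne', hd]
      push_cast
      field_simp
      ring)
  have a5 := mul_le_mul_of_nonneg_right a1 (inv_pos.2 hδ).le
  rw [sq δ, mul_inv_cancel_right₀ hδ.ne'] at a5
  linarith

end Vale.Agent.P339N
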