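import Vale.Agent.P339N.Defs
import Vale.Agent.P339N.Model
import Vale.Agent.P325.Lin3

/-! The reduction from label cover to 2-to-1 games with alphabets of sizes six and three. -/

namespace Vale.Agent.P339N

open Finset Vale.Agent.P325 Vale.Agent.P325.Lin Function Vale.Agent.Lib.TM Vale.Agent.Lib.PCP
open scoped BigOperators

/-- Constraints. -/
abbrev Ed := ℕ × ℕ × List ℕ

/-- All lists of `k` elements of `l`. -/
def tup (l : List Ed) : ℕ → List (List Ed)
  | 0 => [[]]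
  | k + 1 => l.flatMap fun e => (tup l k).map (e :: ·)

lemma ct_tup (k : ℕ) : CT 0 fun l => tup l k := by
  induction k with
  | zero => exact CT.const _
  | succ k ih =>
    exact CT.flatMap (f := fun l e => (tup l k).map (e :: ·))
      (CT.map (f := fun (a : List Ed × Ed) s => a.2 :: s) (CT.id.fst.snd.cons CT.id.snd)
        (ih.comp CT.id.fst)) CT.id

/-- Reading a list as a tuple. -/
def rd (k : ℕ) (s : List Ed) : Fin k → Ed := fun i => s.getD i (0, 0, [])

lemma sum_tup (l : List Ed) (k : ℕ) (f : (Fin k → Ed) → ℝ) :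
    ((tup l k).map fun s => f (rd k s)).sum = ∑ e : Fin k → Fin l.length, f (l.get ∘ e) := by
  induction k with
  | zero => simpa [tup] using congrArg f (Subsingleton.elim _ _)
  | succ k ih =>
    rw [← (Fin.consEquiv fun _ => Fin l.length).sum_comp, Fintype.sum_prod_type,
      tup, List.map_flatMap, List.flatMap_def, List.sum_flatten, List.map_map, ← sum_get]
    refine sum_congr rfl fun i _ => ?_
    have e : ∀ s, rd (k + 1) (l.get i :: s) = Fin.cons (l.get i) (rd k s) := fun s =>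
      funext fun j => by cases j using Fin.cases <;> rfl
    simp only [Function.comp_def, List.map_map, e]
    rw [ih fun t => f (Fin.cons (l.get i) t)]
    exact sum_congr rfl fun t _ => congrArg f (funext fun j => by cases j using Fin.cases <;> rfl)

/-- The five kinds of neighbours. -/
abbrev Kd := Fin 3 ⊕ F2

/-- The tables. -/
def tab (c : F2) : Kd × F2 → List ℕ
  | (.inl j, _) => if j = 0 then (if c = 0 then [0, 0, 1, 1, 2, 2] else [1, 1, 0, 0, 2, 2])
      else if j = 1 then [0, 1, 0, 1, 2, 2] else [0, 1, 1, 0, 2, 2]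
  | (.inr b, s) => if b = 0 then [0, 1, 2, 2, s.val, 1 - s.val] else [2, 2, 0, 1, s.val, 1 - s.val]

lemma tab_ok : ∀ c κ, (tab c κ).length = 2 * 3 ∧ (∀ b ∈ tab c κ, b < 3) ∧
    ∀ b < 3, (tab c κ).count b = 2 := by decide

/-- The honest right labels. -/
def hon (c γ β : F2) : Kd → ℕ
  | .inl j => if j = 0 then (γ + c).val else if j = 1 then β.val else (β + γ).val
  | .inr b => if γ = b then β.val else 2

lemma tab_hon : ∀ (c γ β : F2) κ, (tab c κ).getD (2 * γ.val + β.val) 0 = hon c γ β κ.1 := by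
  decide

/-- The bit of a right label. -/
def bit (n : ℕ) : F2 := if n = 1 then 1 else 0

lemma tab_card : ∀ (c : F2) (l : Fin 6) (r : Kd → Fin 3),
    #{κ : Kd × F2 | (tab c κ).getD l 0 = r κ.1} ≤ 8 + if bit (r (.inl 1)) + bit (r (.inl 2)) =
      bit (r (.inl 0)) + c ∧ bit (r (.inr (bit (r (.inl 0)) + c))) = bit (r (.inl 1))
      then 2 else 0 := by decide +kernel

lemma tab_snd (c : F2) {l : ℕ} (hl : l < 2 * 3) (r : Kd → ℕ) (hr : ∀ κ, r κ < 3) :
    𝔼 κ : Kd × F2, ind ((tab c κ).getD l 0 = r κ.1) ≤ 17 / 20 + stat (bit (r (.inl 0)) + c)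
      (bit (r (.inl 1))) (bit (r (.inl 2))) (bit (r (.inr (bit (r (.inl 0)) + c)))) * (1 / 20) := by
  have h := Nat.cast_le (α := ℝ).2 (tab_card c ⟨l, hl⟩ fun κ => ⟨r κ, hr κ⟩)
  have e : ∀ γ x y w : F2, stat γ x y w = ((if x + y = γ ∧ w = x then 2 else 0 : ℕ) : ℝ) * 2 - 1 :=
    fun γ x y w => by
      rcases F2.cases γ with rfl | rfl <;> rcases F2.cases x with rfl | rfl <;>
        rcases F2.cases y with rfl | rfl <;> rcases F2.cases w with rfl | rfl <;>
        simp [stat, F2.add_self] <;> norm_num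
  rw [ex_ind, e, show Fintype.card (Kd × F2) = 10 from rfl]
  rw [Nat.cast_add] at h
  push_cast at h ⊢
  linarith

variable {k L R : ℕ} (d : Fin L) (t : Fin R)

/-- A coordinate, a constant, and the two functions. -/
abbrev Cell (k L R : ℕ) := Fin k × F2 × ((Fin k → Fin L) × Fin R → F2) × ((Fin k → Fin L) → F2)

/-- Data of right vertices. -/
abbrev Rt (k L R : ℕ) := (Fin k × ((Fin k → Fin L) × Fin R → F2)) ⊕ ((Fin k → Fin L) → F2) ⊕
  ((Fin L → Fin R) × Cell k L R)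

/-- The data of the neighbours. -/
def rt (π : Fin L → Fin R) (x : Cell k L R) : Kd → Rt k L R
  | .inl j => if j = 0 then .inl (x.1, HAdd.hAdd x.2.2.1 fun _ : (Fin k → Fin L) × Fin R => x.2.1)
      else .inr (.inl (if j = 1 then x.2.2.2 else x.2.2.2 + x.2.2.1 ∘ pr d x.1 π))
  | .inr b => .inr (.inr (π, x.1, b, x.2.2.1,
      fun s => if x.2.2.1 (pr d x.1 π s) = b then x.2.2.2 s else 0))

/-- The label cover vertices under the neighbours. -/
def nm (es : Fin k → Ed) (i : Fin k) (κ : Kd) : Fin k → ℕ :=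
  if κ = .inl 0 then update (fun j => (es j).1) i (es i).2.1 else fun j => (es j).1

/-- Numbering of vertices. -/
noncomputable def code {T : Type} [Fintype T] (p : (Fin k → ℕ) × T) : ℕ :=
  Nat.pair (cF k p.1) (num p.2)

lemma code_inj {T : Type} [Fintype T] : Injective (code : (Fin k → ℕ) × T → ℕ) := by
  rintro ⟨a, b⟩ ⟨a', b'⟩ h
  simp_all [code, num_inj, (cF_inj _).eq_iff]

/-- One constraint. -/
noncomputable def con (es : Fin k → Ed) (ξ : Cell k L R × Kd × F2) : Ed :=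
  (code (fun j => (es j).1, (prj t (es ξ.1.1) : Fin L → Fin R), ξ.1),
    code (nm es ξ.1.1 ξ.2.1, rt d (prj t (es ξ.1.1)) ξ.1 ξ.2.1), tab ξ.1.2.1 ξ.2)

lemma ct_con (ξ : Cell k L R × Kd × F2) : CT 0 fun s => con d t (rd k s) ξ := by
  have h : ∀ i, CT 0 fun s => rd k s i := fun i => CT.id.getD (CT.const _) (CT.const _)
  have hp : CTF fun s => (prj t (rd k s ξ.1.1) : Fin L → Fin R) :=
    CTF.pi fun s => CTF.fin ((h _).snd.snd.getD (CT.const (s : ℕ)) (CT.const 0)) t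
  have hn : ∀ j, CT 0 fun s => nm (rd k s) ξ.1.1 ξ.2.1 j := fun j => by
    by_cases e : ξ.2.1 = .inl 0 ∧ j = ξ.1.1
    · exact (h ξ.1.1).snd.fst.of_eq fun s => by simp [nm, e.1, e.2]
    · refine (h j).fst.of_eq fun s => ?_
      rw [nm]
      split_ifs with e'
      · rw [update_of_ne fun e'' => e ⟨e', e''⟩]
      · rfl
  exact (ct_pair (ct_cF fun j => (h j).fst) (hp ℕ fun π => num (π, ξ.1))).mk
    ((ct_pair (ct_cF hn) (hp ℕ fun π => num (rt d π ξ.1 ξ.2.1))).mk (CT.const _))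

/-- The reduction. -/
noncomputable def red (k : ℕ) (G : LC) : Game :=
  (tup G.2.2 k).flatMap fun s =>
    (univ : Finset (Cell k L R × Kd × F2)).toList.map (con d t (rd k s))

lemma ct_red : CT 0 (red d t k) :=
  CT.flatMap (f := fun _ s => (univ : Finset (Cell k L R × Kd × F2)).toList.map (con d t (rd k s)))
    (ct_mapConst (f := fun (a : LC × List Ed) ξ => con d t (rd k a.2) ξ) _
      fun ξ => (ct_con d t ξ).comp CT.id.snd) ((ct_tup k).comp CT.id.snd.snd)

lemma sum_red (G : LC) (f : Ed → ℝ) : ((red d t k G).map f).sum =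
    ∑ e : Fin k → Fin G.2.2.length, ∑ ξ, f (con d t (G.2.2.get ∘ e) ξ) := by
  rw [red, sum_flat, sum_tup G.2.2 k fun es => ∑ ξ, f (con d t es ξ)]

lemma length_red (G : LC) : ((red d t k G).length : ℝ) =
    Fintype.card (Fin k → Fin G.2.2.length) * Fintype.card (Cell k L R × Kd × F2) := by
  have := sum_red (k := k) d t G fun _ => 1
  simp only [sum_const, card_univ, nsmul_eq_mul, mul_one] at this
  rw [← this]
  simp

lemma red_wf (hk : 0 < k) {G : LC} (h : G.WF L R) : (red d t k G).TwoToOne 3 := by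
  have : Nonempty (Fin G.2.2.length) := ⟨⟨0, List.length_pos_iff.2 h.1⟩⟩
  have : Nonempty (Fin k) := ⟨⟨0, hk⟩⟩
  have h : (0 : ℝ) < (red d t k G).length := by rw [length_red]; positivity
  refine ⟨List.length_pos_iff.1 (by exact_mod_cast h), fun e he => ?_⟩
  simp only [red, List.mem_flatMap, List.mem_map] at he
  obtain ⟨s, -, ξ, -, rfl⟩ := he
  exact tab_ok _ _

/-- The honest labels of right vertices. -/
def hR (A : ℕ → Fin L) (B : ℕ → Fin R) : (Fin k → ℕ) × Rt k L R → ℕ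
  | (n, .inl x) => (x.2 (update (A ∘ n) x.1 d, B (n x.1))).val
  | (n, .inr (.inl ψ)) => (ψ (A ∘ n)).val
  | (n, .inr (.inr x)) =>
      if x.2.2.2.1 (pr d x.2.1 x.1 (A ∘ n)) = x.2.2.1 then (x.2.2.2.2 (A ∘ n)).val else 2

lemma extend_lt {α : Type} {c f : α → ℕ} (hc : Injective c) {n : ℕ} (h0 : 0 < n)
    (h : ∀ a, f a < n) (v : ℕ) : extend c f 0 v < n := by
  by_cases e : ∃ w, c w = v
  · obtain ⟨w, rfl⟩ := e
    rw [hc.extend_apply]; exact h _
  · rw [extend_apply' _ _ _ e]; exact h0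

lemma red_perfect {G : LC} (h : G.WF L R) (hG : G.Perfect L R) : (red d t k G).Perfect 3 := by
  obtain ⟨A, B, hA, hB, hG⟩ := hG
  obtain ⟨A', e1⟩ : ∃ A' : ℕ → Fin L, ∀ u, A' u = ⟨A u, hA u⟩ := ⟨_, fun _ => rfl⟩
  obtain ⟨B', e2⟩ : ∃ B' : ℕ → Fin R, ∀ u, B' u = ⟨B u, hB u⟩ := ⟨_, fun _ => rfl⟩
  have v2 : ∀ a : F2, a.val < 2 := fun a => a.val_lt
  refine ⟨extend code (fun p : (Fin k → ℕ) × (Fin L → Fin R) × Cell k L R =>
    2 * (p.2.2.2.2.1 (pr d p.2.2.1 p.2.1 (A' ∘ p.1))).val + (p.2.2.2.2.2 (A' ∘ p.1)).val) 0,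
    extend code (hR (k := k) d A' B') 0, extend_lt code_inj (by norm_num) fun p => ?_,
    extend_lt code_inj (by norm_num) fun p => ?_, ?_⟩
  · have := v2 (p.2.2.2.2.1 (pr d p.2.2.1 p.2.1 (A' ∘ p.1)))
    have := v2 (p.2.2.2.2.2 (A' ∘ p.1))
    omega
  · rcases p with ⟨n, x | ψ | x⟩ <;> rw [hR]
    · exact (v2 _).trans (by norm_num)
    · exact (v2 _).trans (by norm_num)
    · split_ifs
      · exact (v2 _).trans (by norm_num)
      · norm_num
  have s1 := sum_red (k := k) d t G fun _ => 1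
  rw [List.map_const', List.sum_replicate, nsmul_one] at s1
  rw [← Nat.cast_inj (R := ℝ), Game.good, countP_eq, sum_red, s1]
  refine sum_congr rfl fun e _ => sum_congr rfl fun ξ _ => ind_pos (beq_iff_eq.2 ?_)
  obtain ⟨⟨i, c, g, ψ⟩, κ, s⟩ := ξ
  have hi := List.get_mem G.2.2 (e i)
  have q : prj t (G.2.2.get (e i)) (A' (G.2.2.get (e i)).1) = B' (G.2.2.get (e i)).2.1 :=
    Fin.ext (by rw [prj_val t h hi, e1, e2]; exact hG _ hi)
  simp only [con, code_inj.extend_apply, tab_hon]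
  rcases κ with j | b
  · rw [List.get_eq_getElem] at q
    fin_cases j <;> simp [hon, rt, hR, nm, pr, comp_update, q]
  · simp only [hon, rt, hR, nm, reduceCtorEq, if_false]
    split_ifs <;> rfl

include d in
lemma snd_of {G : LC} (h : G.WF L R) {K ε : ℝ} (K0 : 0 < K) (hG : G.ValLe L (ε / K)) :
    Snd (fun i => (G.2.2.get i).1) (fun i => (G.2.2.get i).2.1)
      (fun i => (prj t (G.2.2.get i) : Fin L → Fin R)) K ε := by
  intro wL wR l0 l1 r0 r1
  have h0 : (0 : ℝ) < G.2.2.length := by exact_mod_cast List.length_pos_iff.2 h.1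
  have : Nonempty (Fin L) := ⟨d⟩
  have : Nonempty (Fin R) := ⟨t⟩
  obtain ⟨A, hA⟩ := best (fun i => (G.2.2.get i).1) l0 l1
    (f := fun i s => wR (G.2.2.get i).2.1 (prj t (G.2.2.get i) s)) fun _ _ => r0 _ _
  obtain ⟨B, hB⟩ := best (fun i => (G.2.2.get i).2.1) r0 r1
    (f := fun i s => ind (prj t (G.2.2.get i) (A (G.2.2.get i).1) = s)) fun _ _ => ind_nonneg _
  have h1 := hG (fun u => A u) (fun v => B v) fun u => (A u).2
  rw [LC.good, countP_eq, ← sum_get] at h1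
  simp only [beq_iff_eq, ← prj_val t h (List.get_mem _ _), Fin.val_inj] at h1
  have h2 : ∀ (v : ℕ) (t : Fin R), ∑ l, wR v l * ind (t = l) = wR v t := fun v t => by
    simp [ind_eq_ite]
  simp only [h2, one_mul] at hB
  rw [ex_eq, Fintype.card_fin, div_le_iff₀ h0]
  refine (hA.trans (mul_le_mul_of_nonneg_left (hB.trans h1) K0.le)).trans_eq ?_
  field_simp

lemma red_val (hk : 0 < k) {G : LC} (h : G.WF L R) {A B : ℕ → ℕ} (hA : ∀ u, A u < 2 * 3)
    (hB : ∀ v, B v < 3) {s : ℝ} (hs : 𝔼 e : Fin k → Fin G.2.2.length, 𝔼 x : Cell k L R,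
      (fun r : Kd → F2 => stat (r (.inl 0) + x.2.1) (r (.inl 1)) (r (.inl 2))
        (r (.inr (r (.inl 0) + x.2.1)))) (fun κ => bit (B (code (nm (G.2.2.get ∘ e) x.1 κ,
          rt d (prj t (G.2.2.get (e x.1))) x κ)))) ≤ s) :
    ((red d t k G).good A B : ℝ) ≤ (17 / 20 + s * (1 / 20)) * (red d t k G).length := by
  have : Nonempty (Fin G.2.2.length) := ⟨⟨0, List.length_pos_iff.2 h.1⟩⟩
  have : Nonempty (Fin k) := ⟨⟨0, hk⟩⟩
  have k2 : 𝔼 e : Fin k → Fin G.2.2.length, 𝔼 ξ : Cell k L R × Kd × F2,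
      ind ((con d t (G.2.2.get ∘ e) ξ).2.2.getD (A (con d t (G.2.2.get ∘ e) ξ).1) 0 =
        B (con d t (G.2.2.get ∘ e) ξ).2.1) ≤ 17 / 20 + s * (1 / 20) := by
    refine (ex_mono fun e => (ex_prod _).trans_le (ex_mono fun x => tab_snd x.2.1 (hA _)
      (fun κ => B (code (nm (G.2.2.get ∘ e) x.1 κ, rt d (prj t (G.2.2.get (e x.1))) x κ)))
      fun _ => hB _)).trans ?_
    simp only [ex_add, ex_mul', Fintype.expect_const] at hs ⊢
    linarith
  rw [Game.good, countP_eq, sum_red, length_red]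
  simp only [beq_iff_eq]
  rw [ex_eq, div_le_iff₀ (by positivity)] at k2
  simp only [ex_eq, ← sum_div] at k2
  rwa [div_le_iff₀ (by positivity), mul_assoc] at k2

theorem hard {ε : ℝ} (hε : 0 < ε) : ∃ f : CNF3 → Game, PolyTime f ∧ ∀ φ, (f φ).TwoToOne 3 ∧
    (Sat φ → (f φ).Perfect 3) ∧ (¬ Sat φ → (f φ).ValLe 3 (9 / 10 + ε)) := by
  obtain ⟨k, K, δ, hk, K0, hδ, hm⟩ := model hε
  obtain ⟨L, R, dU, dV, lc, hL, -, -, hc, h⟩ := labelCover_hard (δ := δ / K) (by positivity)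
  obtain ⟨e, he⟩ := List.exists_mem_of_ne_nil _ (h []).1.1
  obtain ⟨-, -, h1, h2⟩ := (h []).1.2 e he
  obtain ⟨t⟩ : Nonempty (Fin R) := ⟨⟨_, h2 _ (List.getElem_mem (h1 ▸ hL))⟩⟩
  obtain ⟨d⟩ : Nonempty (Fin L) := ⟨⟨0, hL⟩⟩
  refine ⟨fun φ => red d t k (lc φ), ((ct_red d t).comp hc).polyTime, fun φ =>
    ⟨red_wf d t hk (h φ).1, fun hs => red_perfect d t (h φ).1 ((h φ).2.2.1 hs),
      fun hs A B hA hB => (red_val d t hk (h φ).1 hA hB (s := 1 + ε) ?_).trans
        (mul_le_mul_of_nonneg_right (by linarith) (Nat.cast_nonneg _))⟩⟩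
  have hS := snd_of d t (h φ).1 K0 ((h φ).2.2.2 hs)
  have : Nonempty (Fin (lc φ).2.2.length) := ⟨⟨0, List.length_pos_iff.2 (h φ).1.1⟩⟩
  generalize lc φ = G at hS this ⊢
  refine le_trans (le_of_eq ?_) (hm L R d t _ _ _ _ hS
    (fun n ψ => bit (B (code (n, (.inr (.inl ψ) : Rt k L R)))))
    (fun n i g => bit (B (code (n, (.inl (i, g) : Rt k L R)))))
    (fun e i γ g ψ => bit (B (code (fun j => (G.2.2.get (e j)).1,
      rt d (prj t (G.2.2.get (e i))) (i, 0, g, ψ) (.inr γ))))) fun e i γ g ψ ψ' h => ?_)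
  · simp only [ex_prod]
    rfl
  · simp only [rt]
    rw [funext fun s => ite_congr rfl (h s) fun _ => rfl]

end Vale.Agent.P339N
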