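import Vale.Agent.Lib.PCP.Defs

/-! 2-to-1 games. -/

namespace Vale.Agent.P339N

/-- A projection game: a list of constraints `(u, v, t)`; left and right vertices are named by
natural numbers and `t` is the table `[π 0, π 1, …]` of the projection. The distribution on the
constraints is uniform on the list (with multiplicity). -/
abbrev Game := List (ℕ × ℕ × List ℕ)

/-- There is a constraint, and every table is a 2-to-1 map from `{0, …, 2q-1}` to `{0, …, q-1}`. -/
def Game.TwoToOne (q : ℕ) (G : Game) : Prop :=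
  G ≠ [] ∧ ∀ e ∈ G, e.2.2.length = 2 * q ∧ (∀ b ∈ e.2.2, b < q) ∧ ∀ b < q, e.2.2.count b = 2

/-- The number of constraints `(u, v, π)` with `π (A u) = B v`. -/
def Game.good (G : Game) (A B : ℕ → ℕ) : ℕ := G.countP fun e => e.2.2.getD (A e.1) 0 == B e.2.1

/-- Some labelling satisfies all constraints. -/
def Game.Perfect (q : ℕ) (G : Game) : Prop :=
  ∃ A B : ℕ → ℕ, (∀ u, A u < 2 * q) ∧ (∀ v, B v < q) ∧ G.good A B = G.length

/-- Every labelling satisfies at most an `s` fraction of the constraints. -/
def Game.ValLe (q : ℕ) (s : ℝ) (G : Game) : Prop :=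
  ∀ A B : ℕ → ℕ, (∀ u, A u < 2 * q) → (∀ v, B v < q) → (G.good A B : ℝ) ≤ s * G.length

end Vale.Agent.P339N
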