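import Vale.Agent.P325.Lin3A

/-! Fourier analysis of the five-neighbour test. -/

namespace Vale.Agent.P339N

open Finset Vale.Agent.P325 Vale.Agent.P325.Lin
open scoped BigOperators

set_option linter.unusedSectionVars false

variable {X Y : Type} [Fintype X] [Fintype Y] [DecidableEq X] [DecidableEq Y]

/-- The noise operator. -/
noncomputable def nz (P : ℕ) (f : (X → F2) → ℝ) (ψ : X → F2) : ℝ :=
  𝔼 r : X → Fin (P + 2), f (ψ + noise r)

lemma hat_nz (P : ℕ) (f : (X → F2) → ℝ) (S : X → F2) : hat (nz P f) S = hat f S * th P S := by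
  simp only [hat.eq_1 (nz P f), nz, ← ex_mul']
  rw [ex_comm, ← ex_noise, ← ex_mul]
  exact congrArg _ (funext fun r => hat_shift f _ S)

lemma abs_nz_le (P : ℕ) (T : (X → F2) → F2) (ψ : X → F2) : |nz P (fun x => sgn (T x)) ψ| ≤ 1 := by
  refine abs_le.2 ⟨?_, ex_le fun r => (le_abs_self _).trans (abs_sgn _).le⟩
  rw [← Fintype.expect_const (ι := X → Fin (P + 2)) (-1 : ℝ)]
  exact ex_mono fun r => neg_le_of_abs_le (abs_sgn _).le

lemma sum_hat_le {f : (X → F2) → ℝ} (h : ∀ x, |f x| ≤ 1) : ∑ S, hat f S ^ 2 ≤ 1 := by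
  rw [← parseval]
  exact ex_le fun x => (sq_le_one_iff_abs_le_one _).2 (h x)

lemma two_mul_le {δ : ℝ} (hδ : 0 < δ) (a b : ℝ) : 2 * (a * b) ≤ δ * a ^ 2 + b ^ 2 / δ := by
  have := sq_nonneg (δ * a - b)
  rw [← sub_nonneg, show δ * a ^ 2 + b ^ 2 / δ - 2 * (a * b) = (δ * a - b) ^ 2 / δ by
    field_simp; ring]
  positivity

lemma junta {φ : (X → F2) → ℝ} (H : (X → F2) → ℝ) (R : X → Prop)
    (hφ : ∀ ψ ψ', (∀ s, R s → ψ s = ψ' s) → φ ψ = φ ψ') (h1 : ∀ x, |φ x| ≤ 1) (z : X → F2) {δ : ℝ}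
    (hδ : 0 < δ) : 2 * 𝔼 ψ, φ ψ * H (ψ + z) ≤
      δ + (∑ S, hat H S ^ 2 * ind (∀ s, S s ≠ 0 → R s)) / δ := by
  rw [plancherel φ fun ψ => H (ψ + z), mul_sum, sum_div]
  refine le_trans (sum_le_sum (g := fun S => δ * hat φ S ^ 2 +
    hat H S ^ 2 * ind (∀ s, S s ≠ 0 → R s) / δ) fun S _ => ?_) ?_
  · by_cases h : ∀ s, S s ≠ 0 → R s
    · refine (two_mul_le hδ _ _).trans_eq ?_
      rw [hat_shift, mul_pow, chi_sq, ind_pos h]
    · obtain ⟨s, hs⟩ := not_forall.1 h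
      obtain ⟨s1, s2⟩ := Classical.not_imp.1 hs
      have k := hat_shift φ (Pi.single s 1) S
      have e1 : (fun x => φ (x + Pi.single s 1)) = φ := funext fun x => hφ _ _ fun t ht => by
        rw [Pi.add_apply, Pi.single_eq_of_ne (fun e : t = s => s2 (e ▸ ht)), add_zero]
      have e2 : chi S (Pi.single s 1) = -1 := by
        change sgn (S ⬝ᵥ Pi.single s 1) = -1
        rw [dotProduct_single, (F2.cases _).resolve_left s1, mul_one, sgn_one]
      rw [e1, e2] at k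
      rw [show hat φ S = 0 by linarith, ind_neg h]
      simp
  · rw [sum_add_distrib, ← mul_sum]
    have := mul_le_mul_of_nonneg_left (sum_hat_le h1) hδ.le
    linarith

lemma couple (P : ℕ) (T : (X → F2) → F2) (a : F2) (z : X → F2) :
    𝔼 ψ, sgn a * (sgn (T ψ) * sgn (T (ψ + z))) ≤ 1 -
      𝔼 ψ, |nz P (fun x => sgn (T x)) ψ - sgn a * nz P (fun x => sgn (T x)) (ψ + z)| := by
  have k : ∀ r : X → Fin (P + 2), 𝔼 ψ, sgn a * (sgn (T ψ) * sgn (T (ψ + z))) =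
      𝔼 ψ, sgn a * (sgn (T (ψ + noise r)) * sgn (T (ψ + z + noise r))) := fun r => by
    rw [← ex_shift (noise r) fun ψ => sgn a * (sgn (T ψ) * sgn (T (ψ + z)))]
    simp only [add_right_comm _ _ z]
  rw [← Fintype.expect_const (ι := X → Fin (P + 2)) (𝔼 ψ, _), funext k, ex_comm,
    ← Fintype.expect_const (ι := X → F2) (1 : ℝ), ← ex_sub]
  refine ex_mono fun ψ => ?_
  have e : ∀ u v w : F2, sgn u * (sgn v * sgn w) = 1 - |sgn v - sgn u * sgn w| := fun u v w => by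
    rcases F2.cases u with rfl | rfl <;> rcases F2.cases v with rfl | rfl <;>
      rcases F2.cases w with rfl | rfl <;> norm_num
  simp only [e, ex_sub, Fintype.expect_const, nz, ← ex_mul]
  rw [← ex_sub]
  exact sub_le_sub_left (abs_expect_le _ _) _

/-- The polarised absolute value. -/
noncomputable def dd (a b : ℝ) : ℝ := |a + b| - |a - b|

lemma dd_sgn (γ : F2) (a b : ℝ) : |a + sgn γ * b| - |a - sgn γ * b| = sgn γ * dd a b := by
  rcases F2.cases γ with rfl | rfl <;> simp [dd, sub_eq_add_neg]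

lemma dd_lip (a b a' b' : ℝ) : |dd a b - dd a' b'| ≤ 2 * |a - a'| + 2 * |b - b'| := by
  have h1 := (abs_abs_sub_abs_le (a + b) (a' + b')).trans
    ((congrArg _ (add_sub_add_comm _ _ _ _)).trans_le (abs_add_le _ _))
  have h2 := (abs_abs_sub_abs_le (a - b) (a' - b')).trans
    ((congrArg _ (sub_sub_sub_comm _ _ _ _)).trans_le (abs_sub _ _))
  rw [dd, dd, sub_sub_sub_comm]
  linarith [abs_sub (|a + b| - |a' + b'|) (|a - b| - |a' - b'|)]

lemma abs_dd_le (a : ℝ) {b : ℝ} (h : |b| ≤ 1) : |dd a b / 2| ≤ 1 := by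
  have := dd_lip a b a 0
  simp only [dd, add_zero, sub_zero, sub_self, abs_zero] at this
  rw [abs_div, dd, abs_two]
  linarith

lemma part1 (P : ℕ) (T ω : (X → F2) → F2) (R : X → Prop)
    (hω : ∀ ψ ψ', (∀ s, R s → ψ s = ψ' s) → ω ψ = ω ψ') (γ : F2) (z : X → F2) {δ : ℝ}
    (hδ : 0 < δ) : 𝔼 ψ, (sgn γ * (sgn (T ψ) * sgn (T (ψ + z))) + sgn (ω ψ) * sgn (T ψ) +
      sgn γ * sgn (ω ψ) * sgn (T (ψ + z))) ≤ 1 + δ + (∑ S, (hat (fun x => sgn (T x)) S *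
      (1 - th P S)) ^ 2 * ind (∀ s, S s ≠ 0 → R s)) / δ +
      sgn γ * 𝔼 ψ, dd (nz P (fun x => sgn (T x)) ψ) (nz P (fun x => sgn (T x)) (ψ + z)) := by
  have h0 := couple P T γ z
  have hH : ∀ S, hat (fun ψ => sgn (T ψ) - nz P (fun x => sgn (T x)) ψ) S =
      hat (fun x => sgn (T x)) S * (1 - th P S) := fun S => by
    rw [mul_one_sub, ← hat_nz]
    simp only [hat, sub_mul, ex_sub]
  obtain ⟨L, hL⟩ : ∃ L, L = nz P fun x => sgn (T x) := ⟨_, rfl⟩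
  rw [← hL] at h0 hH ⊢
  have h1 := junta (φ := fun ψ => sgn (ω ψ)) (fun ψ => sgn (T ψ) - L ψ) R
    (fun ψ ψ' h => by rw [hω ψ ψ' h]) (fun _ => (abs_sgn _).le) 0 hδ
  have h2 := junta (φ := fun ψ => sgn γ * sgn (ω ψ)) (fun ψ => sgn (T ψ) - L ψ) R
    (fun ψ ψ' h => by rw [hω ψ ψ' h]) (fun _ => by rw [← sgn_add]; exact (abs_sgn _).le) z hδ
  have h3 : 𝔼 ψ, (sgn (ω ψ) * sgn (T ψ) + sgn γ * sgn (ω ψ) * sgn (T (ψ + z))) ≤
      𝔼 ψ, (sgn (ω ψ) * (sgn (T ψ) - L ψ) + sgn γ * sgn (ω ψ) * (sgn (T (ψ + z)) - L (ψ + z)) +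
        (|L ψ - sgn γ * L (ψ + z)| + sgn γ * dd (L ψ) (L (ψ + z)))) := ex_mono fun ψ => by
    have := le_abs_self (sgn (ω ψ) * (L ψ + sgn γ * L (ψ + z)))
    rw [abs_mul, abs_sgn, one_mul] at this
    linarith [dd_sgn γ (L ψ) (L (ψ + z))]
  simp only [add_zero, hH] at h1 h2
  simp only [ex_add, ex_mul] at h0 h3 ⊢
  linarith

/-- Level sets of the smoothed table. -/
noncomputable def lev (P m : ℕ) (T : (X → F2) → F2) (j : ℤ) (ψ : X → F2) : ℝ :=
  ind (⌊m * nz P (fun x => sgn (T x)) ψ⌋ = j)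

lemma round_le {m : ℕ} (hm : 0 < m) {a : ℝ} (ha : |a| ≤ 1) (γ : F2) (b b' : ℝ) {δ : ℝ}
    (hδ : 0 < δ) : sgn γ * dd a b ≤ 2 / m + δ + (b - b') ^ 2 / δ +
      ∑ j ∈ Icc (-m : ℤ) m, 2 * (sgn γ * (ind (⌊m * a⌋ = j) * (dd (j / m) b' / 2))) := by
  have m0 : (0 : ℝ) < m := by exact_mod_cast hm
  obtain ⟨a1, a2⟩ := abs_le.1 ha
  have hj : ⌊m * a⌋ ∈ Icc (-m : ℤ) m := mem_Icc.2 ⟨Int.le_floor.2 (by push_cast; nlinarith),
    Int.floor_le_iff.2 (by push_cast; nlinarith)⟩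
  rw [sum_eq_single_of_mem _ hj fun j _ h => by rw [ind_neg h.symm]; simp, ind_pos rfl]
  have h1 := dd_lip a b (⌊m * a⌋ / m) b'
  have h2 : |a - ⌊m * a⌋ / m| ≤ 1 / m := by
    rw [show a - ⌊m * a⌋ / m = Int.fract (m * a) / m by rw [Int.fract]; field_simp, abs_div,
      abs_of_pos m0, abs_of_nonneg (Int.fract_nonneg _)]
    gcongr
    exact (Int.fract_lt_one _).le
  have h3 := two_mul_le hδ 1 |b - b'|
  have h4 := le_abs_self (sgn γ * (dd a b - dd (⌊m * a⌋ / m) b'))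
  rw [abs_mul, abs_sgn] at h4
  rw [sq_abs] at h3
  have : (2 : ℝ) / m = 2 * (1 / m) := by ring
  linarith

lemma sum_wl (P : ℕ) : ∃ K : ℝ, 0 < K ∧ (∀ n : ℕ, n * (((P : ℝ) / (P + 2)) ^ 2) ^ n ≤ K) ∧
    ∀ (X : Type) [Fintype X] [DecidableEq X] (a : (X → F2) → ℝ), (∀ x, |a x| ≤ 1) →
      ∑ s, wl P a s ≤ K := by
  have h : (P : ℝ) / (P + 2) < 1 := by rw [div_lt_one (by positivity)]; linarith
  obtain ⟨K, hK⟩ := (tendsto_self_mul_const_pow_of_lt_one (sq_nonneg _)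
    (pow_lt_one₀ (by positivity) h two_ne_zero)).bddAbove_range
  refine ⟨max K 1, by positivity, fun n => (hK ⟨n, rfl⟩).trans (le_max_left _ _),
    fun X _ _ a ha => ?_⟩
  simp only [wl]
  rw [sum_comm]
  refine le_trans (sum_le_sum fun S _ => ?_) ((sum_mul _ _ (max K 1)).symm.trans_le
    (mul_le_of_le_one_left (by positivity) (sum_hat_le ha)))
  rw [← mul_sum, mul_pow, mul_assoc]
  refine mul_le_mul_of_nonneg_left (le_trans (le_of_eq ?_)
    ((hK ⟨#{s | S s ≠ 0}, rfl⟩).trans (le_max_left _ _))) (sq_nonneg _)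
  simp only [th, ind_eq_ite, sum_boole, pow_right_comm _ 2, mul_comm]

lemma stab (P : ℕ) {η : ℝ} (hη : 0 < η) : ∃ P' : ℕ, ∀ (X : Type) [Fintype X] [DecidableEq X]
    (T : (X → F2) → F2) (z : X → F2), 𝔼 r : X → Fin (P' + 2), 𝔼 ψ,
      (nz P (fun x => sgn (T x)) (ψ + z) - nz P (fun x => sgn (T x)) (ψ + (z + noise r))) ^ 2 ≤
      η := by
  obtain ⟨K, K0, hK, -⟩ := sum_wl P
  obtain ⟨P', hP⟩ := exists_nat_gt (4 * K / η)
  refine ⟨P', fun X _ _ T z => ?_⟩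
  have h1 : ∀ r : X → Fin (P' + 2), 𝔼 ψ, (nz P (fun x => sgn (T x)) (ψ + z) -
      nz P (fun x => sgn (T x)) (ψ + (z + noise r))) ^ 2 =
      ∑ S, 2 * (hat (fun x => sgn (T x)) S * th P S) ^ 2 * (1 - chi S (noise r)) := fun r => by
    rw [parseval]
    refine sum_congr rfl fun S _ => ?_
    have := hat_shift (nz P fun x => sgn (T x)) z S
    have := hat_shift (nz P fun x => sgn (T x)) (z + noise r) S
    simp only [hat.eq_1 (fun ψ => _ - _), sub_mul, ex_sub]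
    simp only [hat.eq_1 (fun ψ => nz _ _ (_ + _))] at *
    simp only [*, chi_add, hat_nz]
    linear_combination (hat (fun x => sgn (T x)) S * th P S) ^ 2 *
      ((1 - chi S (noise r)) ^ 2 * chi_sq S z + chi_sq S (noise r))
  simp only [h1, ex_sum, ex_mul, ex_sub, ex_noise, Fintype.expect_const]
  refine le_trans (sum_le_sum fun S _ => ?_) ((sum_mul _ _ η).symm.trans_le
    (mul_le_of_le_one_left hη.le (sum_hat_le fun x => (abs_sgn (T x)).le)))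
  have h2 := hK #{s | S s ≠ 0}
  have h3 := one_add_mul_le_pow (a := -(2 / (P' + 2) : ℝ)) (by
    rw [neg_le_neg_iff, div_le_iff₀ (by positivity)]; nlinarith [Nat.cast_nonneg (α := ℝ) P'])
    #{s | S s ≠ 0}
  rw [show 1 + -(2 / (P' + 2) : ℝ) = P' / (P' + 2) by field_simp; ring] at h3
  have h4 : 2 * (K * (2 / (P' + 2))) ≤ η := by
    rw [div_lt_iff₀ hη] at hP
    rw [← mul_div_assoc, ← mul_div_assoc, div_le_iff₀ (by positivity)]
    nlinarith
  rw [mul_pow, mul_left_comm, mul_assoc, mul_assoc]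
  refine mul_le_mul_of_nonneg_left (le_trans ?_ h4) (sq_nonneg _)
  rw [pow_right_comm] at h2
  have h5 := mul_le_mul_of_nonneg_right h2 (show (0 : ℝ) ≤ 2 / (P' + 2) by positivity)
  have h6 := mul_le_mul_of_nonneg_left h3 (sq_nonneg (th P S))
  simp only [th] at h6 ⊢
  nlinarith

lemma bias_le [Nonempty Y] (P : ℕ) (π : X → Y) (a : (X → F2) → ℝ) {a' : (X → F2) → ℝ}
    (ha : ∀ x, |a' x| ≤ 1) (b : (Y → F2) → F2) :
    (𝔼 x : Tst X Y P, sgn x.1 * sgn (b (q0 x)) * (a x.2.2.2 * a' (q2 π x))) ^ 2 ≤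
      ∑ s, wl P a s * wr (fun x => sgn (b x)) (π s) := by
  rw [bias_eq π a a' fun x => sgn (b x)]
  refine (sum_mul_sq_le_sq_mul_sq _ _ _).trans ((mul_le_of_le_one_left
    (sum_nonneg fun _ _ => sq_nonneg _) (sum_hat_le ha)).trans ?_)
  simp only [wl, sum_mul]
  rw [sum_comm]
  refine sum_le_sum fun S _ => ?_
  simp only [mul_assoc (_ ^ 2), ← mul_sum, mul_pow _ (𝔼 c : F2, _)]
  refine mul_le_mul_of_nonneg_left ?_ (sq_nonneg _)
  have n : ∀ s ∈ univ, 0 ≤ ind (S s ≠ 0) * wr (fun x => sgn (b x)) (π s) :=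
    fun _ _ => mul_nonneg (ind_nonneg _) (wr_nonneg _ _)
  by_cases h0 : push π S = 0
  · have : 𝔼 c : F2, sgn c = 0 := by simpa [chi, Pairing.B, ind] using ex_chi (1 : F2)
    simpa [h0, ex_mul', this] using sum_nonneg n
  · obtain ⟨s, hs, h1⟩ := exists_ne_zero_of_sum_ne_zero
      (Classical.epsilon_spec (p := (push π S · ≠ 0)) (Function.ne_iff.1 h0))
    refine (ex_sq_le _).trans (le_trans ?_ (single_le_sum n (mem_univ s)))
    simp only [mul_pow, sgn_sq, chi_sq, one_mul, mul_one, Fintype.expect_const, ind_pos h1, wr]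
    refine le_trans (le_of_eq ?_) (single_le_sum (f := fun T => _ ^ 2 * ind _)
      (fun _ _ => mul_nonneg (sq_nonneg _) (ind_nonneg _)) (mem_univ (push π S)))
    rw [ind_pos (mem_filter.1 hs).2.symm, mul_one]

/-- The probability that a set lies in a level set of a random function. -/
noncomputable def mm (p : X → Y) (S : X → F2) : ℝ :=
  𝔼 g : Y → F2, ∑ b : F2, ind (∀ s, S s ≠ 0 → g (p s) = b)

/-- The test statistic. -/
def stat (γ x y w : F2) : ℝ := sgn γ * (sgn x * sgn y) + sgn w * sgn x + sgn γ * sgn w * sgn y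

lemma test [Nonempty Y] (P P' : ℕ) {m : ℕ} (hm : 0 < m) (p : X → Y) (T : (X → F2) → F2)
    (b : (Y → F2) → F2) (ω : F2 → (Y → F2) → (X → F2) → F2)
    (hω : ∀ γ g ψ ψ', (∀ s, g (p s) = γ → ψ s = ψ' s) → ω γ g ψ = ω γ g ψ')
    {δ δ' : ℝ} (hδ : 0 < δ) (hδ' : 0 < δ') (hs : ∀ z : X → F2, 𝔼 r : X → Fin (P' + 2), 𝔼 ψ,
      (nz P (fun x => sgn (T x)) (ψ + z) - nz P (fun x => sgn (T x)) (ψ + (z + noise r))) ^ 2 ≤
      δ ^ 2) : 𝔼 c : F2, 𝔼 g : Y → F2, 𝔼 ψ, stat (b (g + fun _ => c) + c) (T ψ) (T (ψ + g ∘ p))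
      (ω (b (g + fun _ => c) + c) g ψ) ≤ 1 + 3 * δ + 2 / m +
      (∑ S, hat (fun x => sgn (T x)) S ^ 2 * ((1 - th P S) ^ 2 * mm p S)) / δ +
      ∑ j ∈ Icc (-m : ℤ) m, (δ' + (∑ s, wl P' (lev P m T j) s *
        wr (fun x => sgn (b x)) (p s)) / δ') := by
  have h1 : ∀ (γ : F2) (g : Y → F2), 𝔼 ψ, stat γ (T ψ) (T (ψ + g ∘ p)) (ω γ g ψ) ≤
      1 + 3 * δ + 2 / m + (∑ S, hat (fun x => sgn (T x)) S ^ 2 * ((1 - th P S) ^ 2 *
        ∑ b : F2, ind (∀ s, S s ≠ 0 → g (p s) = b))) / δ + ∑ j ∈ Icc (-m : ℤ) m,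
        2 * 𝔼 r : X → Fin (P' + 2), 𝔼 ψ, sgn γ * (lev P m T j ψ *
          (dd (j / m) (nz P (fun x => sgn (T x)) (ψ + (g ∘ p + noise r))) / 2)) := fun γ g => by
    have k1 := part1 P T (ω γ g) (fun s => g (p s) = γ) (hω γ g) γ (g ∘ p) hδ
    have k2 := ex_mono fun r : X → Fin (P' + 2) => ex_mono fun ψ => round_le hm (abs_nz_le P T ψ)
      γ (nz P (fun x => sgn (T x)) (ψ + g ∘ p))
      (nz P (fun x => sgn (T x)) (ψ + (g ∘ p + noise r))) hδ
    have k3 := div_le_div_of_nonneg_right (hs (g ∘ p)) hδ.le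
    have k4 := div_le_div_of_nonneg_right (sum_le_sum (s := univ) fun S _ =>
      mul_le_mul_of_nonneg_left (single_le_sum (f := fun b => ind (∀ s, S s ≠ 0 → g (p s) = b))
        (fun _ _ => ind_nonneg _) (mem_univ γ))
        (sq_nonneg (hat (fun x => sgn (T x)) S * (1 - th P S)))) hδ.le
    rw [sq δ, mul_div_cancel_right₀ _ hδ.ne'] at k3
    simp only [ex_add, ex_sum, ex_mul 2, div_eq_mul_inv _ δ, ex_mul', Fintype.expect_const,
      mul_pow, mul_assoc] at k1 k2 k3 k4 ⊢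
    rw [ex_mul] at k2
    simp only [stat, lev, ex_add, mul_assoc]
    linarith
  refine (ex_mono fun c => ex_mono fun g => h1 _ g).trans ?_
  simp only [ex_add, ex_sum, ex_mul 2, div_eq_mul_inv _ δ, ex_mul', Fintype.expect_const]
  simp only [ex_mul (_ ^ 2), mm]
  refine add_le_add_right (sum_le_sum fun j _ => ?_) _
  have k := bias_le P' p (lev P m T j) (a' := fun ψ => dd (j / m) (nz P (fun x => sgn (T x)) ψ) / 2)
    (fun ψ => abs_dd_le _ (abs_nz_le P T ψ)) b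
  have k' := two_mul_le hδ' 1 (𝔼 x : Tst X Y P', sgn x.1 * sgn (b (q0 x)) * (lev P m T j x.2.2.2 *
    (dd (j / m) (nz P (fun x => sgn (T x)) (q2 p x)) / 2)))
  have := div_le_div_of_nonneg_right k hδ'.le
  simp only [ex_prod, q0, q2, mul_comm (sgn _) (sgn (b _)), ← sgn_add] at k' this
  linarith

end Vale.Agent.P339N
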